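import Mathlib
import Vale.Agent.P015.Strip

/-!
Bounded-step walks through Gaussian primes cannot run along strips, in any direction, with a
length bound explicit in the width; so they cannot escape inside slowly widening neighbourhoods
of lines or inside asymptotically flat sets.
-/

theorem Vale.Agent.Results.P015.NoLongStrips.result :
    (∀ D : ℝ, ∃ C : ℝ, ∀ W : ℝ, 0 ≤ W → ∀ q u : ℂ, ‖u‖ = 1 →
      ∀ (m : ℕ) (z : ℕ → GaussianInt),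
      (∀ i ≤ m, Prime (z i) ∧ |(((z i : ℂ) - q) * star u).im| ≤ W) →
      (∀ i < m, ‖(z (i + 1) : ℂ) - z i‖ ≤ D) →
      ‖(z m : ℂ) - z 0‖ ≤ Real.exp (C * (W + 1) ^ 3 * Real.log (W + 2))) ∧
    (∀ (D c : ℝ) (q u : ℂ), ‖u‖ = 1 →
      ¬ ∃ z : ℕ → GaussianInt, Function.Injective z ∧ ∀ n, Prime (z n) ∧
        |(((z n : ℂ) - q) * star u).im| ≤ c * Real.log (2 + ‖(z n : ℂ)‖) ^ (1 / 4 : ℝ) ∧
        ‖(z (n + 1) : ℂ) - z n‖ ≤ D) ∧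
    (∀ (D W : ℝ) (S : Set ℂ),
      (∀ L : ℝ, ∃ R : ℝ, ∀ c : ℂ, R ≤ ‖c‖ → ∃ q u : ℂ, ‖u‖ = 1 ∧
        ∀ w ∈ S, ‖w - c‖ ≤ L → |((w - q) * star u).im| ≤ W) →
      ¬ ∃ z : ℕ → GaussianInt, Function.Injective z ∧
        ∀ n, Prime (z n) ∧ (z n : ℂ) ∈ S ∧ ‖(z (n + 1) : ℂ) - z n‖ ≤ D) ∧
    (∀ D W : ℝ, ¬ ∃ z : ℕ → GaussianInt, Function.Injective z ∧ ∀ n, Prime (z n) ∧
      (∃ t : ℝ, ‖(z n : ℂ) - ((t : ℂ) + (t : ℂ) ^ 2 * Complex.I)‖ ≤ W) ∧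
      ‖(z (n + 1) : ℂ) - z n‖ ≤ D) :=
  ⟨fun D => (Vale.Agent.P015.strip_bound_exp D).imp fun _ h W hW q u hu m z hz hs =>
      (Vale.Agent.P015.strip_walk D W q u hu m z hz hs).trans (h.2 W hW),
    Vale.Agent.P015.no_path_near_line,
    Vale.Agent.P015.no_path_in_flat_set, Vale.Agent.P015.no_path_near_parabola⟩
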